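import Vale.Agent.P216FR.Anc
import Vale.Agent.P216K.Riem

/-! # Quadratic curvature decay away from the axis is attained -/

open scoped Manifold ContDiff Topology ENNReal
open Set MeasureTheory

set_option linter.all false

noncomputable section

namespace Vale.Agent.P216FR

open Vale.Agent.P216R Vale.Agent.P216DC Vale.Agent.P216K Vale.Agent.P216BF

variable {M : Type} [TopologicalSpace M] [ChartedSpace E3 M] [IsManifold 𝓘(ℝ, E3) ∞ M]
  {g : ℝ → Ten E3 M} {U : Set M} {x y : M} {w t : ℝ} {σ : ℝ → M} {b : M → ℝ}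

theorem dl_lip (h : Anc g U) (hA : Axis g U σ b) (hx : x ∈ U) (hy : y ∈ U) :
    dl (g 0) U σ b x ≤ dd (g 0) U x y + dl (g 0) U σ b y :=
  (hA.min x hx (b y)).trans (dd_triangle (h.ed_ne le_rfl hx hy) (h.ed_ne le_rfl hy (hA.mem _)))

theorem dd_back (h : Anc g U) (ht : t ≤ 0) {C r : ℝ}
    (hC : ∀ u ≤ 0, ∀ z ∈ bl (g 0) U x r, Sc (g u) z ≤ C) (hy : y ∈ bl (g 0) U x r) :
    dd (g t) U x y ≤ Real.exp (C / 2 * (0 - t)) * dd (g 0) U x y :=
  dd_le_of_ed (Real.exp_pos _).le (ne_top_of_lt hy)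
    (h.ed_back ht le_rfl (fun u hu z hz => hC u hu.2.le z hz) hy)

variable [MeasurableSpace M] [BorelSpace M]

/-- near every point, at the time `-η²`, there is a point far from the axis -/
theorem exit (hH : HARN) (hD : DIST) (h : Evg w g U) (hA : Axis g U σ b) {A : ℝ}
    (A0 : 0 ≤ A) (hq : ∀ y ∈ U, Sc (g 0) y * dl (g 0) U σ b y ^ 2 ≤ A) :
    ∃ C : ℝ, ∀ η > 0, ∀ x ∈ U, ∃ y ∈ U, η ≤ dl (g 0) U σ b y ∧
      dd (g (-η ^ 2)) U x y ≤ C * η := by
  have w0 := h.pos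
  have o0 := om_pos
  obtain ⟨C₀, hC₀⟩ := h.bdd
  have hA' := h.toAnc
  obtain ⟨Λ, hΛ⟩ : ∃ Λ, Λ = Real.exp (A / 2) := ⟨_, rfl⟩
  have Λ1 : 1 ≤ Λ := hΛ ▸ Real.one_le_exp (by linarith)
  obtain ⟨K, hK⟩ := exists_nat_ge (512 * om * Λ ^ 3 / w)
  obtain ⟨C, hC⟩ := exists_nat_gt (max 6 (1944 * K / (w / 8 / om)))
  refine ⟨C, fun η η0 x hx => ?_⟩
  have ht : -η ^ 2 ≤ 0 := neg_nonpos.2 (sq_nonneg η)
  have n1 := nn_anc hA' ht
  have n0 := nn_anc hA' le_rfl
  obtain ⟨y, y1, y2⟩ := (nn_sp n1.toMS n1.cpl n1.sec).exit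
    (d := fun a a' => dd (g 0) U a.val a'.val) (δ := fun a => dl (g 0) U σ b a.val)
    (b := fun a => b a.val) (σ := fun s => Sp.mk _ (σ s) (hA.mem s)) (η := η) (c := w / 8 / om)
    (Λ := Λ) (K := K) (C := C) (x := Sp.mk _ x hx) η0 Λ1
    (by exact_mod_cast ((le_max_left _ _).trans_lt hC).le)
    (by rw [mul_comm (w / 8 / om), ← div_lt_iff₀ (by positivity)]
        exact (le_max_right _ _).trans_lt hC)
    (fun l s hs hl => n1.sep (av_back hD h ht) _ hs hl)
    (fun z S s1 s2 => by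
      have p : 0 < η / Λ := by positivity
      have a1 := n0.pack h.av S Sp.val (fun a _ => a.prop) z.prop (half_pos p) (by positivity) s1
        (by simpa only [mul_div_cancel₀ _ (two_ne_zero' ℝ)] using s2)
      have a2 : η / Λ ≤ η := div_le_self η0.le Λ1
      have a3 : om * (3 * η + η / Λ / 2) ^ 3 ≤ om * (4 * η) ^ 3 := by gcongr; linarith
      have a4 : (S.card : ℝ) ≤ 512 * om * Λ ^ 3 / w := by
        refine le_of_mul_le_mul_right (a1.trans (a3.trans_eq ?_)) (by positivity)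
        field_simp
        ring
      exact_mod_cast a4.trans hK)
    (fun a s => hA.le _ a.prop s)
    (fun c L s hc hs e => by
      have := hA.btw _ ht (fun u => (c u).val) L s (fun a ha a' ha' => by
        rw [← hc a ha a' ha', Sp.dist_eq, ofReal_dd (Sp.ne_top _ _)]) hs
      rwa [e] at this)
    (fun a => hA.lip _ ht _ a.prop x hx)
    (LipschitzWith.of_le_add fun a a' => by
      linarith [dl_lip hA' hA a.prop a'.prop, dd_anti hA' ht le_rfl a.prop a'.prop,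
        Sp.dist_eq a a']).continuous
    (fun D => by
      obtain ⟨y, yU, y1⟩ := dl_unbdd h hA (max (2 * η) (D + dl (g 0) U σ b x))
      obtain ⟨z, zU, z1, z2, -⟩ := hA.tr y yU x hx
      rw [← z2, max_le_iff] at y1
      refine ⟨Sp.mk _ z zU, z1, y1.1, ?_⟩
      have a1 := dl_lip hA' hA zU hx
      rw [dd_comm] at a1
      exact le_trans (by linarith [y1.2] : D ≤ dd (g 0) U x z) (dd_anti hA' ht le_rfl hx zU))
    (fun l => ⟨Real.exp (C₀ / 2 * (0 - -η ^ 2)) * (2 * η + l + dl (g 0) U σ b x),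
      fun a a1 a2 => by
        have a3 : dd (g 0) U a.val x ≤ 2 * η + l + dl (g 0) U σ b x := by
          have b1 := dd_triangle (hA'.ed_ne le_rfl a.prop (hA.mem (b x)))
            (hA'.ed_ne le_rfl (hA.mem (b x)) hx)
          have b2 := hA.le _ a.prop (b x)
          have b3 : dd (g 0) U (σ (b x)) x = dl (g 0) U σ b x := dd_comm
          have b4 : |b a.val - b x| ≤ l := a2
          linarith
        exact (dd_back hA' ht (fun u hu z hz => hC₀ u hu z (bl_subset hz))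
          (hA'.mem_bl le_rfl a.prop hx (lt_add_one _))).trans
          (mul_le_mul_of_nonneg_left a3 (Real.exp_pos _).le)⟩)
    (fun a a' a1 a2 => by
      have := dd_back hA' ht (C := A / η ^ 2) (fun u hu z hz => by
        have zU := bl_subset hz
        refine ((hH M g U hA' h.bdd z zU).1 hu self_mem_Iic hu).trans ?_
        have b1 : η ≤ dl (g 0) U σ b z := by
          linarith [dl_lip hA' hA a.prop zU, (mem_bl_iff.1 hz).2]
        rw [le_div_iff₀ (by positivity)]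
        exact (mul_le_mul_of_nonneg_left (pow_le_pow_left₀ η0.le b1 2)
          (hA'.sc_nonneg le_rfl zU)).trans (hq z zU)) (hA'.mem_bl le_rfl a.prop a'.prop a2)
      rwa [show A / η ^ 2 / 2 * (0 - -η ^ 2) = A / 2 by field_simp; ring, ← hΛ] at this)
  exact ⟨y.val, y.prop, y1, y2⟩

theorem far (hH : HARN) (hR : RT) (hD : DIST) : FAR := by
  intro M _ _ _ _ _ w A g U σ b x h hA hx h0 hq
  obtain ⟨C, hC⟩ := exit hH hD h hA ((mul_nonneg h0.le (sq_nonneg _)).trans (hq x hx)) hq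
  obtain ⟨κ, κ0, hκ⟩ := exists_late hH hR h.toAnc h.bdd hx h0
  refine ⟨κ / Real.exp (C ^ 2 / 2), by positivity, fun D => ?_⟩
  obtain ⟨T, t1, t2, z, zU, t3⟩ := hκ (D ^ 2)
  obtain ⟨y, yU, y1, y2⟩ := hC √T (Real.sqrt_pos.2 t2) z zU
  rw [Real.sq_sqrt t2.le] at y2
  refine ⟨y, yU, (Real.le_sqrt_of_sq_le t1).trans y1, ?_⟩
  have a1 := (hH M g U h.toAnc h.bdd z zU).2 y yU (-T) 0 (by linarith) le_rfl
  have a2 := h.toAnc.sc_nonneg le_rfl yU
  have a3 : dd (g (-T)) U z y ^ 2 / (2 * (0 - -T)) ≤ C ^ 2 / 2 := by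
    have := pow_le_pow_left₀ dd_nonneg y2 2
    rw [mul_pow, Real.sq_sqrt t2.le] at this
    rw [div_le_iff₀ (by linarith)]
    linarith
  have a4 : T ≤ dl (g 0) U σ b y ^ 2 := by
    have := pow_le_pow_left₀ (Real.sqrt_nonneg T) y1 2
    rwa [Real.sq_sqrt t2.le] at this
  rw [div_le_iff₀ (Real.exp_pos _)]
  calc κ ≤ T * (Real.exp (C ^ 2 / 2) * Sc (g 0) y) :=
        t3.trans (mul_le_mul_of_nonneg_left (a1.trans (by gcongr)) t2.le)
    _ ≤ dl (g 0) U σ b y ^ 2 * (Real.exp (C ^ 2 / 2) * Sc (g 0) y) := by gcongr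
    _ = _ := by ring

end Vale.Agent.P216FR
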