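import Vale.Agent.P216FR.Pack
import Vale.Agent.P216DC.Uni
import Vale.Agent.P216D.ShiL
import Vale.Agent.P216BF.Vol

/-! # Ancient solutions: volume growth at earlier times, decay of the maximal curvature -/

open scoped Manifold ContDiff Topology ENNReal
open Set MeasureTheory

set_option linter.all false

noncomputable section

namespace Vale.Agent.P216FR

open Vale.Agent.P216R Vale.Agent.P216DC Vale.Agent.P216K Vale.Agent.P216BF

variable {M : Type} [TopologicalSpace M] [ChartedSpace E3 M] [IsManifold 𝓘(ℝ, E3) ∞ M]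
  {g : ℝ → Ten E3 M} {U : Set M} {x y : M} {w t : ℝ} {σ : ℝ → M} {b : M → ℝ}

theorem nn_anc (h : Anc g U) (ht : t ≤ 0) : Nn (g t) U :=
  ⟨(h.met ht).ms h.hs h.conn, h.cpl t ht, h.sec t ht⟩

theorem dd_anti (h : Anc g U) {s : ℝ} (hs : s ≤ t) (ht : t ≤ 0) (hx : x ∈ U) (hy : y ∈ U) :
    dd (g t) U x y ≤ dd (g s) U x y :=
  ENNReal.toReal_mono (h.ed_ne (hs.trans ht) hx hy) (h.ed_anti hs ht x y)

/-- balls grow by a bounded amount backwards in time -/
theorem bl_back (hD : DIST) (h : Anc g U) (hb : Bdd g U) (ht : t ≤ 0) :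
    ∃ L, 0 ≤ L ∧ ∀ x ∈ U, ∀ r, bl (g 0) U x r ⊆ bl (g t) U x (r + L) := by
  obtain ⟨c, c0, hD⟩ := hD
  obtain ⟨C, hC⟩ := hb
  have L0 : 0 ≤ c * √|C| * (0 - t) := mul_nonneg (by positivity) (by linarith)
  refine ⟨_, L0, fun x hx r y hy => ?_⟩
  have h1 : ed (g 0) U x y + ENNReal.ofReal (c * √|C| * (0 - t)) <
      ENNReal.ofReal (r + c * √|C| * (0 - t)) := by
    rw [ENNReal.ofReal_add (pos_of_mem_bl hy).le L0]
    exact ENNReal.add_lt_add_right ENNReal.ofReal_ne_top hy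
  refine (hD M g U x y t 0 _ |C| ht (abs_nonneg C) (h.rf.mono_time fun _ k => k.2) h.hs
    (fun s hs => ⟨h.cpt hs.2 hx _, fun z hz => (h.ricLe hs.2 (bl_subset hz)).mono
      ((h.met hs.2).nonneg (bl_subset hz)) ?_⟩) h1).trans_lt h1
  linarith [hC s hs.2 z (bl_subset hz), le_abs_self C, abs_nonneg C]

/-- the curvature cannot have been much smaller shortly before -/
theorem sc_back (hH : HARN) (hR : RT) : ∃ Λ > 0,
    ∀ (M : Type) [TopologicalSpace M] [ChartedSpace E3 M] [IsManifold 𝓘(ℝ, E3) ∞ M]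
      (g : ℝ → Ten E3 M) (U : Set M) (x : M) (t u Q : ℝ), Anc g U → Bdd g U → x ∈ U → u ≤ t →
      t ≤ 0 → 0 < Q → (∀ y ∈ U, Sc (g t) y ≤ Q) →
      Sc (g t) x - Λ * Q ^ 2 * (t - u) ≤ Sc (g u) x := by
  obtain ⟨D, hD⟩ := anc_shi P216D.shi 2 1
  obtain ⟨c, c0, hR⟩ := hR
  refine ⟨c * (|D| + 1 ^ 2), by positivity, fun M _ _ _ g U x t u Q h hb hx hu ht Q0 hQ => ?_⟩
  have h1 := h.resc Q0 ht
  have h2 : ∀ z ∈ U, ∀ s ≤ 0, Sc (resc g Q t s) z ≤ 1 := fun z hz s hs =>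
    ((hH M _ U h1 (hb.resc Q0 ht) z hz).1 hs self_mem_Iic hs).trans (by
      simp only [resc_zero, sc_sc Q0]
      exact (div_le_one Q0).2 (hQ z hz))
  have h3 := (convex_Iic (0 : ℝ)).norm_image_sub_le_of_norm_derivWithin_le
    (C := c * (|D| + 1 ^ 2))
    ((h1.rf.toFam.contDiffOn_time_Sc hx).differentiableOn (by simp))
    (fun s hs => hR M _ _ U x s 1 |D| h1.rf (convex_Iic 0) (by simp) hs hx
      (h1.rmB hs hx (h2 x hx s hs))
      (rmB_mono (hD M _ U x h1 hx (fun z hz => h2 z (bl_subset hz)) s hs) (le_abs_self D)))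
    (show Q * (u - t) ∈ Iic (0 : ℝ) from mul_nonpos_of_nonneg_of_nonpos Q0.le (by linarith))
    self_mem_Iic
  have e : t + Q * (u - t) / Q = u := by field_simp; ring
  rw [Real.norm_eq_abs, Real.norm_eq_abs, resc_zero, resc, e, sc_sc Q0, sc_sc Q0, zero_sub,
    abs_neg, abs_mul, abs_of_pos Q0, abs_of_nonpos (by linarith : u - t ≤ 0), ← sub_div, abs_div,
    abs_of_pos Q0, div_le_iff₀ Q0] at h3
  nlinarith [le_of_abs_le h3]

/-- the maximal curvature decays at most like `1 / T` along a sequence of times -/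
theorem exists_late (hH : HARN) (hR : RT) (h : Anc g U) (hb : Bdd g U) (hx : x ∈ U)
    (h0 : 0 < Sc (g 0) x) : ∃ κ > 0, ∀ T₀, ∃ T, T₀ ≤ T ∧ 0 < T ∧ ∃ y ∈ U, κ ≤ T * Sc (g (-T)) y := by
  obtain ⟨Λ, Λ0, hΛ⟩ := sc_back hH hR
  obtain ⟨C, hC⟩ := id hb
  have C0 : 0 < C := h0.trans_le (hC 0 le_rfl x hx)
  have step : ∀ T, 0 ≤ T → ∀ y ∈ U, 0 < Sc (g (-T)) y → ∃ T', T + 1 / (2 * Λ * C) ≤ T' ∧
      ∃ z ∈ U, 1 / (8 * Λ) ≤ T' * Sc (g (-T')) z := fun T hT y hy h1 => by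
    have hB : BddAbove (Sc (g (-T)) '' U) :=
      ⟨C, forall_mem_image.2 fun z hz => hC _ (by linarith) z hz⟩
    have hN : (Sc (g (-T)) '' U).Nonempty := ⟨_, mem_image_of_mem _ hy⟩
    obtain ⟨Q, hQ⟩ : ∃ Q, Q = sSup (Sc (g (-T)) '' U) := ⟨_, rfl⟩
    have q1 : ∀ z ∈ U, Sc (g (-T)) z ≤ Q := fun z hz => hQ ▸ le_csSup hB (mem_image_of_mem _ hz)
    have Q0 : 0 < Q := h1.trans_le (q1 y hy)
    have q2 : Q ≤ C := hQ ▸ csSup_le hN (forall_mem_image.2 fun z hz => hC _ (by linarith) z hz)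
    obtain ⟨_, ⟨z, hz, rfl⟩, q3⟩ := exists_lt_of_lt_csSup hN (hQ ▸ by linarith : 3 / 4 * Q < _)
    have p : 0 < 1 / (2 * Λ * Q) := by positivity
    have q4 := hΛ M g U z (-T) (-(T + 1 / (2 * Λ * Q))) Q h hb hz (by linarith) (by linarith) Q0 q1
    rw [show Λ * Q ^ 2 * (-T - -(T + 1 / (2 * Λ * Q))) = Q / 2 by field_simp; ring] at q4
    refine ⟨T + 1 / (2 * Λ * Q), by gcongr, z, hz, ?_⟩
    calc 1 / (8 * Λ) = 1 / (2 * Λ * Q) * (Q / 4) := by field_simp; ring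
      _ ≤ _ := mul_le_mul (by linarith) (by linarith) (by positivity) (by linarith)
  have p : 0 < 1 / (2 * Λ * C) := by positivity
  have key : ∀ n : ℕ, ∃ T, (n + 1) * (1 / (2 * Λ * C)) ≤ T ∧
      ∃ z ∈ U, 1 / (8 * Λ) ≤ T * Sc (g (-T)) z := fun n => by
    induction n with
    | zero => simpa using step 0 le_rfl x hx (by simpa using h0)
    | succ n ih =>
      obtain ⟨T, a1, z, hz, a2⟩ := ih
      have T0 : 0 < T := lt_of_lt_of_le (by positivity) a1
      obtain ⟨T', a3, a4⟩ := step T T0.le z hz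
        ((mul_pos_iff_of_pos_left T0).1 (lt_of_lt_of_le (by positivity) a2))
      exact ⟨T', by push_cast; linarith, a4⟩
  refine ⟨1 / (8 * Λ), by positivity, fun T₀ => ?_⟩
  obtain ⟨n, hn⟩ := exists_nat_ge (T₀ / (1 / (2 * Λ * C)))
  obtain ⟨T, a1, a2⟩ := key n
  rw [div_le_iff₀ p] at hn
  exact ⟨T, by linarith, lt_of_lt_of_le (by positivity) a1, a2⟩

variable [MeasurableSpace M] [BorelSpace M]

/-- Euclidean volume growth at earlier times -/
theorem av_back (hD : DIST) (h : Evg w g U) (ht : t ≤ 0) : AV (w / 8) (g t) U := fun y hy r hr => by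
  obtain ⟨L, L0, hL⟩ := bl_back hD h.toAnc h.bdd ht
  have w0 := h.pos
  have hR : 0 < r + L := by linarith
  refine P216BG.vl_of_sec0 (h.toAnc.met ht) h.hs (h.toAnc.cpt ht hy (2 * (r + L)))
    (fun z hz => h.sec t ht z (bl_subset hz)) (by positivity) hr (by linarith) ?_
  obtain ⟨K, k1, k2⟩ := lin_bl (h.toAnc.cpt le_rfl hy (r + L))
  have h1 := rf_vol_anti (h.rf.mono_time (fun _ k => k.2 : Icc t 0 ⊆ Iic 0)) ht k1 k2 bl_subset
    ((h.toAnc.met le_rfl).isOpen_bl _ _).measurableSet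
    fun s hs z hz => h.toAnc.sc_nonneg hs.2.le (bl_subset hz)
  refine le_trans (le_of_eq ?_) ((h.av y hy _ hR).trans (h1.trans (measure_mono
    ((hL y hy _).trans (bl_mono (by linarith))))))
  congr 1; ring

/-- the distance from the axis is unbounded -/
theorem dl_unbdd (h : Evg w g U) (hA : Axis g U σ b) (D : ℝ) :
    ∃ y ∈ U, D ≤ dl (g 0) U σ b y := by
  by_contra H
  push Not at H
  have w0 := h.pos
  have o0 := om_pos
  have D0 : 0 < D := dd_nonneg.trans_lt (H _ (hA.mem 0))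
  obtain ⟨n, hn⟩ := exists_nat_gt (max 1 (3 * (om * (D + 1) ^ 3) / w))
  have n1 : (1 : ℝ) < n := (le_max_left _ _).trans_lt hn
  have n2 := (div_lt_iff₀ w0).1 ((le_max_right _ _).trans_lt hn)
  have h1 := (nn_anc h.toAnc le_rfl).cover (Finset.range (2 * n + 1)) (fun k => σ (k - n))
    (fun _ _ => hA.mem _) (by linarith : 0 < D + 1) (h.av _ (hA.mem 0) n (by linarith))
    fun y hy => by
      have yU := bl_subset hy
      have a1 := (hA.lip 0 le_rfl _ (hA.mem 0) y yU).trans_lt (mem_bl_iff.1 hy).2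
      rw [hA.base, zero_sub, abs_neg, abs_lt] at a1
      have a2 := Nat.floor_le (by linarith : 0 ≤ b y + n)
      have a3 := Nat.lt_floor_add_one (b y + n)
      refine mem_biUnion (x := ⌊b y + n⌋₊) ?_ (mem_bl_comm.1 (h.toAnc.mem_bl le_rfl yU (hA.mem _) ?_))
      · rw [Finset.mem_coe, Finset.mem_range, Nat.lt_succ_iff]
        exact Nat.floor_le_of_le (by push_cast; linarith)
      · have a4 : |b y - (⌊b y + n⌋₊ - n)| ≤ 1 := abs_le.2 ⟨by linarith, by linarith⟩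
        linarith [hA.le y yU (⌊b y + n⌋₊ - n), H y yU]
  rw [Finset.card_range] at h1
  push_cast at h1
  have p : 0 < om * (D + 1) ^ 3 := by positivity
  generalize om * (D + 1) ^ 3 = B at *
  have a1 : (n : ℝ) * 1 ≤ n * n := by gcongr
  nlinarith [mul_lt_mul_of_pos_right n2 (show (0 : ℝ) < n * n by positivity)]

end Vale.Agent.P216FR
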