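import Vale.Agent.P216K.Stm
import Vale.Agent.P216BG.Bgc
import Vale.Agent.P216DC.Resc
import Vale.Agent.P216B.Sp

/-! # Packing and covering for Euclidean volume growth -/

open scoped Manifold ContDiff Topology ENNReal
open Set MeasureTheory

set_option linter.all false

noncomputable section

namespace Vale.Agent.P216FR

open Vale.Agent.P216R Vale.Agent.P216DC Vale.Agent.P216K Vale.Agent.P216BF

/-- the volume of the Euclidean unit ball, at least -/
def om : ℝ :=
  (volume (Metric.ball (0 : EuclideanSpace ℝ (Fin (Module.finrank ℝ E3))) 1)).toReal + 1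

theorem om_pos : 0 < om := by unfold om; positivity

variable {M : Type} [TopologicalSpace M] [ChartedSpace E3 M] [IsManifold 𝓘(ℝ, E3) ∞ M]
  [MeasurableSpace M] [BorelSpace M]

/-- complete, connected, nonnegatively curved -/
structure Nn (g : Ten E3 M) (U : Set M) : Prop extends MS g U where
  cpl : Cpl g U
  sec : ∀ x ∈ U, SecGe g x 0

variable {g : Ten E3 M} {U : Set M} {x : M} {w r : ℝ}

theorem Nn.vol_le (h : Nn g U) (hx : x ∈ U) (hr : 0 < r) :
    vol g (bl g U x r) ≤ ENNReal.ofReal (om * r ^ 3) := by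
  have h1 := P216BG.bg0_le h.met h.hs (h.cpl.cpt hx r) (by simp) (fun y hy v => by
    simpa using ricGe3 finrank_E3 h.met (bl_subset hy) (h.sec y (bl_subset hy)) v) hr
  refine h1.trans ?_
  rw [mul_comm om, ENNReal.ofReal_mul (by positivity)]
  refine mul_le_mul' (by rw [finrank_E3]) ?_
  refine (ENNReal.ofReal_toReal measure_ball_lt_top.ne).symm.le.trans (ENNReal.ofReal_le_ofReal ?_)
  exact (lt_add_one _).le

/-- covering bound -/
theorem Nn.cover (h : Nn g U) {ι : Type} (S : Finset ι) (f : ι → M) (hf : ∀ a ∈ S, f a ∈ U)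
    {s : ℝ} (hs : 0 < s) (hv : Vl w g U x r) (hc : bl g U x r ⊆ ⋃ a ∈ S, bl g U (f a) s) :
    w * r ^ 3 ≤ S.card * (om * s ^ 3) := by
  have h1 := hv.trans ((measure_mono hc).trans ((measure_biUnion_finset_le S _).trans
    (Finset.sum_le_card_nsmul _ _ _ fun a ha => h.vol_le (hf a ha) hs)))
  have := om_pos
  rwa [nsmul_eq_mul, ← ENNReal.ofReal_natCast, ← ENNReal.ofReal_mul (Nat.cast_nonneg _),
    ENNReal.ofReal_le_ofReal_iff (by positivity)] at h1

/-- packing bound -/
theorem Nn.pack (h : Nn g U) (hv : AV w g U) {ι : Type} (S : Finset ι) (f : ι → M)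
    (hf : ∀ a ∈ S, f a ∈ U) (hx : x ∈ U) {s : ℝ} (hs : 0 < s) (hr : 0 ≤ r)
    (h1 : ∀ a ∈ S, dd g U (f a) x ≤ r)
    (h2 : (S : Set ι).Pairwise fun a b => 2 * s ≤ dd g U (f a) (f b)) :
    S.card * (w * s ^ 3) ≤ om * (r + s) ^ 3 := by
  have := om_pos
  rcases le_or_gt w 0 with w0 | w0
  · exact (mul_nonpos_of_nonneg_of_nonpos (Nat.cast_nonneg _)
      (mul_nonpos_of_nonpos_of_nonneg w0 (by positivity))).trans (by positivity)
  have h3 := measure_biUnion_finset (μ := vol g) (s := S) (f := fun a => bl g U (f a) s)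
    (fun a ha b hb hne => disjoint_left.2 fun z z1 z2 => by
      have a1 := mem_bl_iff.1 z1
      have a2 := mem_bl_iff.1 (mem_bl_comm.1 z2)
      linarith [dd_triangle a1.1 a2.1, h2 ha hb hne, a1.2, a2.2])
    fun a _ => (h.met.isOpen_bl _ _).measurableSet
  have h4 : (⋃ a ∈ S, bl g U (f a) s) ⊆ bl g U x (r + s) := iUnion₂_subset fun a ha =>
    bl_add hr ((mem_cbl_iff hr).2 ⟨h.fin _ hx _ (hf a ha), dd_comm.trans_le (h1 a ha)⟩)
  have h5 := (Finset.card_nsmul_le_sum S _ _ fun a ha => hv _ (hf a ha) s hs).trans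
    (h3.symm.le.trans ((measure_mono h4).trans (h.vol_le hx (by positivity))))
  rwa [nsmul_eq_mul, ← ENNReal.ofReal_natCast, ← ENNReal.ofReal_mul (Nat.cast_nonneg _),
    ENNReal.ofReal_le_ofReal_iff (by positivity)] at h5

/-- large separated sets -/
theorem Nn.sep (h : Nn g U) (hv : AV w g U) (p : Sp h.toMS) {l s : ℝ} (hs : 0 < s) (hl : s ≤ l) :
    ∃ S : Finset (Sp h.toMS), ↑S ⊆ Metric.ball p l ∧
      (S : Set (Sp h.toMS)).Pairwise (fun a b => s ≤ dist a b) ∧ w / om * (l / s) ^ 3 ≤ S.card := by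
  classical
  have := om_pos
  have key : ∀ n : ℕ, ∃ S : Finset (Sp h.toMS), ↑S ⊆ Metric.ball p l ∧
      (S : Set (Sp h.toMS)).Pairwise (fun a b => s ≤ dist a b) ∧
      (w / om * (l / s) ^ 3 ≤ S.card ∨ n ≤ S.card) := fun n => by
    induction n with
    | zero => exact ⟨∅, by simp, by simp, Or.inr le_rfl⟩
    | succ n ih =>
      obtain ⟨S, a1, a2, a3⟩ := ih
      by_cases hc : bl g U p.val l ⊆ ⋃ a ∈ S, bl g U a.val s
      · refine ⟨S, a1, a2, Or.inl ?_⟩
        have := h.cover S Sp.val (fun a _ => a.prop) hs (hv _ p.prop l (hs.trans_le hl)) hc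
        rw [div_pow, div_mul_div_comm, div_le_iff₀ (by positivity)]
        exact this
      rcases a3 with a3 | a3
      · exact ⟨S, a1, a2, Or.inl a3⟩
      obtain ⟨z, z1, z2⟩ := not_subset.1 hc
      have z3 : ∀ a ∈ S, s ≤ dist a (Sp.mk h.toMS z (bl_subset z1)) := fun a ha =>
        not_lt.1 fun k => z2 (mem_iUnion₂.2 ⟨a, ha, (Sp.mem_ball (p := a)
          (q := Sp.mk h.toMS z (bl_subset z1))).1 (Metric.mem_ball'.2 k)⟩)
      have z4 : Sp.mk h.toMS z (bl_subset z1) ∉ S := fun k => by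
        simpa [hs.not_ge] using z3 _ k
      refine ⟨insert (Sp.mk h.toMS z (bl_subset z1)) S, ?_, ?_, Or.inr ?_⟩
      · rw [Finset.coe_insert]
        exact insert_subset (Sp.mem_ball.2 z1) a1
      · rw [Finset.coe_insert]
        exact a2.insert fun a ha _ => ⟨dist_comm a _ ▸ z3 a ha, z3 a ha⟩
      · rw [Finset.card_insert_of_notMem z4]; omega
  obtain ⟨S, a1, a2, a3⟩ := key ⌈w / om * (l / s) ^ 3⌉₊
  exact ⟨S, a1, a2, a3.elim id fun k => Nat.ceil_le.1 k⟩

end Vale.Agent.P216FR
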